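import Vale.Agent.P281.H64.Gen.Lift
import Vale.Agent.P281.H383.TGB.Bd
import Vale.Agent.P281.H969.TGB.Spec

/-! P281, project T-U, block U3 (helper383): `liftG` for forms bounded on the tame slices (adapted
from `H64/Gen/Lift.lean`). -/

open scoped Manifold ContDiff Topology
open Set Filter Metric Vale.Agent.P281 Vale.Agent.P272.K
open Vale.Agent.P281.MF Vale.Agent.P281.ISO Vale.Agent.P281.ELL Vale.Agent.P281.H713
open Vale.Agent.P281.H713.TZ Vale.Agent.P281.H64.Gen Vale.Agent.P281.H64.TU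
open Vale.Agent.P281.H969.TGB (TameOKB)
open Vale.Agent.P281.H383.TGB (bd_TB)

set_option linter.all false

noncomputable section

namespace Vale.Agent.P281.H383.TGF

variable {n p : ℕ} {Z Y : Type} [TopologicalSpace Z] [ChartedSpace (Cm n) Z]
  [IsManifold 𝓘(ℂ, Cm n) ω Z] [TopologicalSpace Y] [ChartedSpace (Cm p) Y]
  [IsManifold 𝓘(ℂ, Cm p) ω Y]
variable {E₀ : Type} [NormedAddCommGroup E₀] [NormedSpace ℂ E₀] [FiniteDimensional ℂ E₀]

theorem liftUK {𝒯 : Tame E₀ Z} {B : Set Z} (h𝒯 : TameOKB (n := n) B 𝒯) (hBc : IsClosed B)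
    [T2Space Z]
    (hgen : GenPart) (hsl : SlicePart) (hlin : LinPart) {f : Z → Y}
    (hf : ∀ x, HolM (Cm n) (Cm p) f x) {S : Set Y} (hS : IsClosed S)
    (hyp : ∀ (g : Z → ℂ) (x : Z), HolV (Cm n) g x → g x = 0 →
      (∀ᶠ z in 𝓝 x, g z = 0 → f z ∈ S) → ∃ᶠ z in 𝓝 x, g z = 0 ∧ z ∉ B)
    (hsub : ∀ x, f x ∉ S → Function.Surjective (dM (Cm n) (Cm p) f x))
    (e₀ : Cm n ≃L[ℂ] (Cm p × E₀))
    (hcov : Cov n (f ⁻¹' S))
    {N : ℕ} (hN : 0 < N) {𝒜 : Set (Set Z)} (h𝒜f : 𝒜.Finite)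
    (h𝒜p : ∀ D ∈ 𝒜, IsPrimeDivisor (Cm n) D) {K : Set Z → ℕ} {Θ : Z → ℂ}
    (hΘ : RelFormT 𝒯 f S e₀ N 𝒜 K Θ) (hKfin : {D | K D ≠ 0}.Finite)
    (hKpr : ∀ D, K D ≠ 0 → IsPrimeDivisor (Cm n) D) {t : Y → ℂ}
    (htS : ∀ y, y ∉ S → ∃ b : Y → ℂ, HolV (Cm p) b y ∧
      ∀ᶠ y' in 𝓝 y, t y' = b y' * jac (Cm p) (chartAt (Cm p) y : Y → Cm p) y' ^ N)
    {K₁ : Set Z → ℕ} (hK₁ : ∀ D, K₁ D ≤ K D)
    (htP : ∀ (z₀ : Z) (T : Finset (Set Z)) (e : Set Z → Z → ℂ), (∀ D, K₁ D ≠ 0 → D ∈ T) →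
      (∀ D ∈ T, IsLocalEq (Cm n) D (e D) z₀) → ∀ I : Fin N → Fin p → Fin n, ∃ a : Z → ℂ,
        HolV (Cm n) a z₀ ∧ ∀ᶠ z in 𝓝 z₀, f z ∉ S → ∏ D ∈ T, e D z ^ K₁ D ≠ 0 →
          t (f z) * TL.minors (n := n) (p := p) N (id : Z → Z) f z₀ z I *
            ∏ D ∈ T, e D z ^ K₁ D = a z) :
    ∃ σ : Z → ℂ, IsSection (Cm n) (fun (D : Set Z) z g => IsLocalEq (Cm n) D g z) N K σ ∧
      ∀ x, f x ∉ S → (∀ D ∈ 𝒜, x ∉ D) → σ x = t (f x) * Θ x := by
  classical
  have hfc : ∀ x, ContinuousAt f x := fun x => (hf x).continuousAt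
  have hfcont : Continuous f := continuous_iff_continuousAt.2 hfc
  set Ω₁ : Set Z := {z | f z ∉ S} with hΩ₁
  have hΩ₁o : IsOpen Ω₁ := hS.isOpen_compl.preimage hfcont
  have hΩ₁d : Dense Ω₁ := hcov.dense_compl
  haveI : LocallyCompactSpace Z := ChartedSpace.locallyCompactSpace (Cm n) Z
  have h𝒜d := dense_compl_finite h𝒜f (fun D hD => (h𝒜p D hD).1) (fun D hD => by
    rw [dense_iff_inter_open]
    intro U hU hUne
    obtain ⟨x, hxU, hxD⟩ := IsLocalEq.exists_notMem (h𝒜p D hD).2.1 hU hUne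
    exact ⟨x, hxU, hxD⟩)
  set Ω : Set Z := Ω₁ ∩ {z | ∀ D ∈ 𝒜, z ∉ D} with hΩ
  have hΩd : Dense Ω := hΩ₁d.inter_of_isOpen_left h𝒜d.2 hΩ₁o
  set σ₀ : Z → ℂ := fun x => t (f x) * Θ x with hσ₀
  have hσ₀e : ∀ x, σ₀ x = t (f x) * Θ x := fun x => rfl
  obtain ⟨σ', hσ', hsec⟩ := extend_section (E := Cm n) (m := N) (K := K) hΩd (σ := σ₀) (by
    intro z₀
    have hTpr : ∀ D, K D ≠ 0 ∨ D ∈ 𝒜 → IsPrimeDivisor (Cm n) D := fun D hD =>
      hD.elim (hKpr D) (h𝒜p D)
    have hTfin : {D | K D ≠ 0 ∨ D ∈ 𝒜}.Finite := hKfin.union h𝒜f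
    have heX : ∀ D, ∃ e : Z → ℂ, (K D ≠ 0 ∨ D ∈ 𝒜) → IsLocalEq (Cm n) D e z₀ := by
      intro D
      by_cases hD : K D ≠ 0 ∨ D ∈ 𝒜
      · obtain ⟨e, he⟩ := (hTpr D hD).2.1 z₀
        exact ⟨e, fun _ => he⟩
      · exact ⟨fun _ => 0, fun h => absurd h hD⟩
    choose eX heX using heX
    set TX : Finset (Set Z) := hTfin.toFinset with hTX
    have hTXm : ∀ D, D ∈ TX ↔ (K D ≠ 0 ∨ D ∈ 𝒜) := fun D => by
      rw [hTX, Set.Finite.mem_toFinset]; rfl
    have hKTX : ∀ D, K D ≠ 0 → D ∈ TX := fun D hD => (hTXm D).2 (Or.inl hD)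
    have hK₁TX : ∀ D, K₁ D ≠ 0 → D ∈ TX := fun D hD => hKTX D (by have := hK₁ D; omega)
    have heX' : ∀ D ∈ TX, IsLocalEq (Cm n) D (eX D) z₀ := fun D hD => heX D ((hTXm D).1 hD)
    set φ := chartAt (Cm n) z₀ with hφ
    have hz₀s : z₀ ∈ φ.source := mem_chart_source (Cm n) z₀
    set PX : Z → ℂ := fun z => ∏ D ∈ TX, eX D z ^ K D with hPX
    set PX₁ : Z → ℂ := fun z => ∏ D ∈ TX, eX D z ^ K₁ D with hPX₁
    set PX₂ : Z → ℂ := fun z => ∏ D ∈ TX, eX D z ^ (K D - K₁ D) with hPX₂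
    have hPX12 : ∀ z, PX z = PX₁ z * PX₂ z := by
      intro z
      simp only [hPX, hPX₁, hPX₂]
      rw [← Finset.prod_mul_distrib]
      refine Finset.prod_congr rfl fun D _ => ?_
      rw [← pow_add]
      congr 1
      have := hK₁ D
      omega
    set h₀ : Z → ℂ := fun z => σ₀ z * PX z / jac (Cm n) φ z ^ N with hh₀
    choose a haH haE using fun I => htP z₀ TX eX hK₁TX heX' I
    have haE' := Filter.eventually_all.2 haE
    have heXe : ∀ᶠ z in 𝓝 z₀, ∀ D ∈ TX, IsLocalEq (Cm n) D (eX D) z := by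
      rw [Filter.eventually_all_finset]
      intro D hD
      exact (heX' D hD).eventually
    -- everything needed at points near `z₀`
    set W : Z → Prop := fun z => (∀ D ∈ TX, IsLocalEq (Cm n) D (eX D) z) ∧ z ∈ φ.source ∧
      (∀ I, HolV (Cm n) (a I) z) ∧ (∀ I, f z ∉ S → PX₁ z ≠ 0 →
        t (f z) * TL.minors (n := n) (p := p) N (id : Z → Z) f z₀ z I * PX₁ z = a I z) with hW
    have hWev : ∀ᶠ z in 𝓝 z₀, W z := by
      filter_upwards [heXe, φ.open_source.mem_nhds hz₀s,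
        Filter.eventually_all.2 fun I => HolV.eventually (E := Cm n) (haH I), haE'] with
        z h2 h3 h5 h6
      exact ⟨h2, h3, h5, h6⟩
    have hWW : ∀ᶠ z in 𝓝 z₀, ∀ᶠ z' in 𝓝 z, W z' := eventually_eventually_nhds.2 hWev
    have hPXh : ∀ z, W z → HolV (Cm n) PX z := fun z hz =>
      HolV.prod fun D hD => ((hz.1 D hD).holAt).pow (K D)
    have hPX₂h : ∀ z, W z → HolV (Cm n) PX₂ z := fun z hz =>
      HolV.prod fun D hD => ((hz.1 D hD).holAt).pow _
    set P₁ : Z → ℂ := fun z => ∏ D ∈ TX, eX D z with hP₁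
    have hP₁h : HolV (Cm n) P₁ z₀ := HolV.prod fun D hD => (heX' D hD).holAt
    have hP₁h' : ∀ z, W z → HolV (Cm n) P₁ z := fun z hz =>
      HolV.prod fun D hD => (hz.1 D hD).holAt
    have hPP : ∀ (q : Set Z → ℕ) z, P₁ z ≠ 0 → ∏ D ∈ TX, eX D z ^ q D ≠ 0 := by
      intro q z hz
      refine Finset.prod_ne_zero_iff.2 fun D hD => pow_ne_zero _ ?_
      exact Finset.prod_ne_zero_iff.1 hz D hD
    have hPA : ∀ z, W z → P₁ z ≠ 0 → ∀ D ∈ 𝒜, z ∉ D := by
      intro z hz h0 D hD hzD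
      have hDT : D ∈ TX := (hTXm D).2 (Or.inr hD)
      exact Finset.prod_ne_zero_iff.1 h0 D hDT ((hz.1 D hDT).mem_iff.1 hzD)
    have hAP : ∀ z, W z → (∀ D ∈ 𝒜, z ∉ D) → PX z ≠ 0 → P₁ z ≠ 0 := by
      intro z hz hzA h0
      refine Finset.prod_ne_zero_iff.2 fun D hD h1 => ?_
      rcases (hTXm D).1 hD with h2 | h2
      · exact Finset.prod_ne_zero_iff.1 h0 D hD (by rw [h1, zero_pow h2])
      · exact hzA D h2 ((hz.1 D hD).mem_iff.2 h1)
    have hhol : ∀ z, (∀ᶠ z' in 𝓝 z, W z') → f z ∉ S →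
        ∃ H₁ : Z → ℂ, HolV (Cm n) H₁ z ∧ ∀ᶠ z' in 𝓝 z, P₁ z' ≠ 0 → h₀ z' = H₁ z' := by
      intro z hz hzS
      have hz0 := hz.self_of_nhds
      obtain ⟨bY, hbY, hbYe⟩ := htS (f z) hzS
      obtain ⟨H, hH, hHe⟩ := hΘ.hol z₀ z (f z) hzS hz0.2.1 (mem_chart_source _ _) TX eX hKTX
        (fun D hD => hz0.1 D hD)
      refine ⟨fun z => bY (f z) * H z, (HolV.comp (E' := Cm p) hbY (hf z)).mul hH, ?_⟩
      filter_upwards [hz, hHe, (hfc z).eventually hbYe] with z' h2 h4 h5 hP₁0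
      have h8 := h4 (hPA z' h2 hP₁0) (hPP K z' hP₁0)
      have hj : jac (Cm n) φ z' ^ N ≠ 0 := pow_ne_zero _ (jac_chart_ne_zero h2.2.1)
      simp only [hh₀]
      rw [hσ₀e z', div_eq_iff hj, h5]
      linear_combination bY (f z') * h8
    have hhol' : ∀ z, (∀ᶠ z' in 𝓝 z, W z') → f z ∉ S → P₁ z ≠ 0 → HolV (Cm n) h₀ z := by
      intro z hz hzS h0
      obtain ⟨H₁, hH₁, hH₁e⟩ := hhol z hz hzS
      refine hH₁.congr ?_
      filter_upwards [hH₁e, (hP₁h' z hz.self_of_nhds).continuousAt.eventually_ne h0] with z' h1 h2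
        using h1 h2
    -- the points to which `h₀` extends
    set good : Z → Prop := fun z => ∃ Q : Z → ℂ, HolV (Cm n) Q z ∧
      ∀ᶠ w in 𝓝 z, f w ∉ S → P₁ w ≠ 0 → h₀ w = Q w with hgood
    have hPfr : ∀ z, W z → ∃ᶠ w in 𝓝 z, P₁ w ≠ 0 := fun z hz =>
      (freq_prod (fun D hD => (hz.1 D hD).holAt)
        (fun D hD => leq_frequently_ne (hz.1 D hD))).self_of_nhds
    have hfrW : ∀ z, (∀ᶠ z' in 𝓝 z, W z') → ∃ᶠ w in 𝓝 z, f w ∉ S ∧ P₁ w ≠ 0 := by
      intro z hz hcon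
      obtain ⟨w, h1, h2, h3, h4⟩ := ((mem_closure_iff_frequently.1 (hΩ₁d z)).and_eventually
        (hcon.eventually_nhds.and (hz.and hz.eventually_nhds))).exists
      obtain ⟨w', h5, h6, h7⟩ := ((hPfr w h3).and_eventually
        (h2.and (hΩ₁o.mem_nhds h1))).exists
      exact h6 ⟨h7, h5⟩
    have hgoodS : ∀ z, (∀ᶠ z' in 𝓝 z, W z') → f z ∉ S → good z := by
      intro z hz hzS
      obtain ⟨H₁, hH₁, hH₁e⟩ := hhol z hz hzS
      exact ⟨H₁, hH₁, hH₁e.mono fun w hw _ h => hw h⟩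
    have hgo : ∀ z, good z → ∀ᶠ w in 𝓝 z, good w := by
      rintro z ⟨Q, hQ, hQe⟩
      filter_upwards [HolV.eventually (E := Cm n) hQ, hQe.eventually_nhds] with w h1 h2
      exact ⟨Q, h1, h2⟩
    set h₁ : Z → ℂ := fun z => if h : good z then h.choose z else 0 with hh₁
    have hh₁e : ∀ z, good z → (∀ᶠ z' in 𝓝 z, W z') → HolV (Cm n) h₁ z ∧
        ∀ᶠ w in 𝓝 z, f w ∉ S → P₁ w ≠ 0 → h₀ w = h₁ w := by
      intro z hz hzW
      obtain ⟨Q, hQ, hQe⟩ := id hz
      have key : ∀ᶠ w in 𝓝 z, h₁ w = Q w := by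
        filter_upwards [hgo z hz, hzW.eventually_nhds, HolV.eventually (E := Cm n) hQ,
          hQe.eventually_nhds] with w h1 h2 h3 h4
        have h5 : h₁ w = h1.choose w := by
          simp only [hh₁]
          rw [dif_pos h1]
        rw [h5]
        obtain ⟨h6, h7⟩ := h1.choose_spec
        by_contra hcon
        have h8 : ContinuousAt (fun y => h1.choose y - Q y) w :=
          h6.continuousAt.sub h3.continuousAt
        have h9 := h8.eventually_ne (sub_ne_zero.2 hcon)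
        obtain ⟨y, ⟨hy1, hy2⟩, hy3, hy4, hy5⟩ :=
          ((hfrW w h2).and_eventually (h7.and (h4.and h9))).exists
        exact hy5 (sub_eq_zero.2 ((hy3 hy1 hy2).symm.trans (hy4 hy1 hy2)))
      refine ⟨hQ.congr key, ?_⟩
      filter_upwards [key, hQe] with w h1 h2 h3 h4
      rw [h1, h2 h3 h4]
    have hall : ∀ᶠ z in 𝓝 z₀, good z := by
      obtain ⟨O, hO, hOo, hz₀O⟩ := _root_.eventually_nhds_iff.1 hWW
      by_contra hcon
      set F : Set Z := O ∩ {z | ¬ good z} with hF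
      have hFne : F.Nonempty := by
        by_contra hne
        apply hcon
        filter_upwards [hOo.mem_nhds hz₀O] with z hz
        by_contra hzg
        exact hne ⟨z, hz, hzg⟩
      have hgopen : IsOpen {z | good z} := isOpen_iff_mem_nhds.2 fun z hz => hgo z hz
      have hFl : IsLocallyClosed F := hOo.isLocallyClosed.inter
        (by
          have : IsClosed {z | ¬ good z} := by
            have h := hgopen.isClosed_compl
            exact h
          exact this.isLocallyClosed)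
      obtain ⟨H, hH, hHsub⟩ := hcov
      obtain ⟨k, z, ⟨hzO, hzg⟩, hzk⟩ := baire_loc hFl hFne (fun k => (hH k).1) (fun w hw => by
        refine hHsub ?_
        by_contra hwS
        exact hw.2 (hgoodS w (hO w hw.1) hwS))
      obtain ⟨Den, hDen, hDne, hDev⟩ := (hH k).2 z
      have hDen : HolV (Cm n) Den z := hDen
      apply hzg
      have hzW : ∀ᶠ z' in 𝓝 z, W z' := hO z hzO
      have hzO' : ∀ᶠ z' in 𝓝 z, z' ∈ O := hOo.mem_nhds hzO
      have hP₁z : HolV (Cm n) P₁ z := hP₁h' z hzW.self_of_nhds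
      set Den' : Z → ℂ := fun z => Den z * P₁ z with hDen'
      have hDen'h : HolV (Cm n) Den' z := hDen.mul hP₁z
      have hfr : ∀ᶠ y in 𝓝 z, ∃ᶠ z in 𝓝 y, Den' z ≠ 0 :=
        freq_mul hDen (ne_frequently hDen hDne)
          (freq_prod (fun D hD => (hzW.self_of_nhds.1 D hD).holAt)
            (fun D hD => leq_frequently_ne (hzW.self_of_nhds.1 D hD)))
      -- off `Den'`, the points are good
      have hgD : ∀ᶠ y in 𝓝 z, Den' y ≠ 0 → good y := by
        filter_upwards [hzk, hzO', hDev] with y h1 h2 h3 h4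
        by_contra h5
        exact left_ne_zero_of_mul h4 (h3 (h1 ⟨h2, h5⟩))
      obtain ⟨Q, hQ, hQe⟩ := extendM_off (h := h₁) (Den := Den') hDen'h
        (fun hcon => hfr.self_of_nhds (by simpa using hcon)) (by
        filter_upwards [hgD, hzW.eventually_nhds] with y h1 h2 h3
        exact (hh₁e y (h1 h3) h2).1) (by
        filter_upwards [hgD.eventually_nhds, hzW.eventually_nhds, hfr.eventually_nhds,
          hDen'h.eventually.eventually_nhds, hzO'.eventually_nhds] with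
          x hx hxW hxf hxh hxO hx0
        rw [mem_closure_iff_nhds]
        intro U hU
        -- shrink `U`
        obtain ⟨U', hU', hU'o, hxU'⟩ := _root_.eventually_nhds_iff.1
          ((((hx.eventually_nhds.and hxW.eventually_nhds).and hxO.eventually_nhds).and
            (eventually_eventually_nhds.2 (show ∀ᶠ w in 𝓝 x, w ∈ U from hU))).and
              (hxf.and hxh))
        by_cases hcase0 : ∀ᶠ w in 𝓝 x, Den' w = 0 → ¬ good w
        swap
        · -- a good point near `x`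
          have h1 : ∃ᶠ w in 𝓝 x, Den' w = 0 ∧ good w := by
            intro hcon
            apply hcase0
            filter_upwards [hcon] with w hw hw0 hwg
            exact hw ⟨hw0, hwg⟩
          obtain ⟨w, ⟨hw0, hwg⟩, hwU, hwW⟩ := (h1.and_eventually
            ((show ∀ᶠ w in 𝓝 x, w ∈ U from hU).and hxW.eventually_nhds)).exists
          refine ⟨w, hwU, hw0, ‖h₁ w‖ + 1, ?_⟩
          filter_upwards [(HolV.continuousAt (E := Cm n)
            (hh₁e w hwg hwW).1).norm.eventually_lt_const (lt_add_one ‖h₁ w‖)] with v h1 _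
          exact h1.le
        have hDS0 : ∀ᶠ w in 𝓝 x, Den' w = 0 → f w ∈ S := by
          filter_upwards [hcase0, hxW.eventually_nhds] with w h1 h2 h3
          by_contra h4
          exact h1 h3 (hgoodS w h2 h4)
        -- a point off `B`
        obtain ⟨x', ⟨hx'0, hx'B⟩, hx'U⟩ := ((hyp Den' x hxh.self_of_nhds hx0 hDS0).and_eventually
          (hU'o.mem_nhds hxU')).exists
        obtain ⟨⟨⟨⟨-, hx'W⟩, -⟩, -⟩, hx'f, hx'h⟩ := hU' x' hx'U
        obtain ⟨y, ⟨hyU', hyB⟩, hy0, e, he, he0, hene, hee, hord⟩ := genM hgen (z := x')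
          (Den := Den') hx'h
          (fun hcon => hx'f (by simpa using hcon)) hx'0 (b := fun J : Fin p → Fin n =>
            a (fun _ => J)) (fun J => hx'W.self_of_nhds.2.2.1 _)
          (Filter.inter_mem (hU'o.mem_nhds hx'U) (hBc.isOpen_compl.mem_nhds hx'B))
        obtain ⟨⟨⟨⟨hyD, hyW⟩, hyO⟩, hyU⟩, -⟩ := hU' y hyU'
        by_cases hcase : ∀ᶠ w in 𝓝 y, Den' w = 0 → ¬ good w
        swap
        · -- a good point
          have h1 : ∃ᶠ w in 𝓝 y, Den' w = 0 ∧ good w := by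
            intro hcon
            apply hcase
            filter_upwards [hcon] with w hw hw0 hwg
            exact hw ⟨hw0, hwg⟩
          obtain ⟨w, ⟨hw0, hwg⟩, hwU, hwW⟩ := (h1.and_eventually
            (hyU.and hyW.eventually_nhds)).exists
          refine ⟨w, hwU, hw0, ‖h₁ w‖ + 1, ?_⟩
          filter_upwards [(HolV.continuousAt (E := Cm n)
            (hh₁e w hwg hwW).1).norm.eventually_lt_const (lt_add_one ‖h₁ w‖)] with v h1 _
          exact h1.le
        refine ⟨y, hyU.self_of_nhds, hy0, ?_⟩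
        have hDS : ∀ᶠ w in 𝓝 y, Den' w = 0 → f w ∈ S := by
          filter_upwards [hcase, hyW.eventually_nhds] with w h1 h2 h3
          by_contra h4
          exact h1 h3 (hgoodS w h2 h4)
        have heS : ∀ᶠ w in 𝓝 y, e w = 0 → f w ∈ S := by
          filter_upwards [hDS, hee] with w h1 h2 h3
          exact h1 (h2.2 h3)
        have hP₁0 : ∀ᶠ w in 𝓝 y, f w ∉ S → P₁ w ≠ 0 := by
          filter_upwards [hDS] with w h1 h3 h4
          apply h3
          refine h1 ?_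
          rw [hDen']
          simp [h4]
        obtain ⟨C, hC⟩ := bd_TB hsl hlin hf hsub e₀ hN (𝒜 := 𝒜) (Θ := Θ) hΘ.bound (z₀ := z₀)
          (y := y) (fun P => h𝒯 y z₀ P hyB hyW.self_of_nhds.2.1) hyW.self_of_nhds.2.1 (t := t) (PX := PX₁) (a := a)
          hyW.self_of_nhds.2.2.1 (by
            filter_upwards [hyW, hP₁0] with w h1 h2 h3 I
            exact h1.2.2.2 I h3 (hPP K₁ w (h2 h3))) he heS
          (Eventually.of_forall fun w => mem_closure_iff_frequently.1 (hΩ₁d w)) hord (by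
            filter_upwards [hyW, hP₁0] with w h1 h2 h3
            exact hPA w h1 (h2 h3))
        have hc2 := (hPX₂h y hyW.self_of_nhds).continuousAt
        have hbd : ∀ᶠ w in 𝓝 y, f w ∉ S → ‖h₀ w‖ ≤ |C| * (‖PX₂ y‖ + 1) := by
          filter_upwards [hC, hc2.norm.eventually_lt_const (lt_add_one _), hyW] with
            w h1 h2 h3 hwS
          have hj : jac (Cm n) φ w ^ N ≠ 0 := pow_ne_zero _ (jac_chart_ne_zero h3.2.1)
          have h6 := h1 hwS
          simp only [hh₀]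
          rw [hσ₀e w, norm_div, div_le_iff₀ (norm_pos_iff.2 hj), hPX12]
          calc ‖t (f w) * Θ w * (PX₁ w * PX₂ w)‖ = ‖t (f w) * Θ w * PX₁ w‖ * ‖PX₂ w‖ := by
                rw [← norm_mul]; congr 1; ring
            _ ≤ (C * ‖jac (Cm n) φ w ^ N‖) * ‖PX₂ w‖ := by gcongr
            _ ≤ (|C| * ‖jac (Cm n) φ w ^ N‖) * (‖PX₂ y‖ + 1) := by
                gcongr
                exact le_abs_self C
            _ = |C| * (‖PX₂ y‖ + 1) * ‖jac (Cm n) φ w ^ N‖ := by ring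
        refine ⟨|C| * (‖PX₂ y‖ + 1), ?_⟩
        filter_upwards [hyD, hyW.eventually_nhds, hbd.eventually_nhds, hP₁0.eventually_nhds] with
          w h1 h2 h3 h4 h5
        obtain ⟨h6, h7⟩ := hh₁e w (h1 h5) h2
        by_contra hcon
        push Not at hcon
        have h8 := (HolV.continuousAt (E := Cm n) h6).norm.eventually_const_lt hcon
        obtain ⟨v, hv1, hv2, hv3, hv4, hv5⟩ :=
          ((mem_closure_iff_frequently.1 (hΩ₁d w)).and_eventually
            (h3.and (h4.and (h7.and h8)))).exists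
        have hv6 : h₀ v = h₁ v := hv4 hv1 (hv3 hv1)
        rw [← hv6] at hv5
        exact absurd (hv2 hv1) (not_le.2 hv5))
      refine ⟨Q, hQ, ?_⟩
      filter_upwards [hQe.eventually_nhds, hzW.eventually_nhds, hfr, hQ.eventually,
        hgD.eventually_nhds] with x h1 h2 h3 h5 h6 hxS hxP
      by_contra hcon
      have h7 : ContinuousAt (fun y => h₀ y - Q y) x :=
        (hhol' x h2 hxS hxP).continuousAt.sub h5.continuousAt
      have h8 := h7.eventually_ne (sub_ne_zero.2 hcon)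
      have h9 := (hh₁e x (hgoodS x h2 hxS) h2).2
      obtain ⟨y, hy, hy1, hy2, hy3, hy4, hy5⟩ := (h3.and_eventually (h1.and (h8.and (h9.and
        ((show ∀ᶠ w in 𝓝 x, w ∈ Ω₁ from hΩ₁o.mem_nhds hxS).and
          ((hP₁h' x h2.self_of_nhds).continuousAt.eventually_ne hxP)))))).exists
      exact hy2 (sub_eq_zero.2 ((hy3 hy4 hy5).trans (hy1 hy)))
    obtain ⟨Q, hQ, hQe⟩ := hall.self_of_nhds
    refine ⟨TX, eX, Q, hKTX, heX', hQ, ?_⟩
    filter_upwards [hQe, hWev] with z h1 h3 hzS hPz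
    have hj : jac (Cm n) φ z ^ N ≠ 0 := pow_ne_zero _ (jac_chart_ne_zero h3.2.1)
    have h6 : h₀ z = Q z := h1 hzS.1 (hAP z h3 hzS.2 hPz)
    show σ₀ z * PX z = Q z * jac (Cm n) φ z ^ N
    rw [← h6]
    simp only [hh₀]
    rw [div_mul_cancel₀ _ hj])
  exact ⟨σ', hsec, fun x hx hxA => by rw [hσ' x ⟨hx, hxA⟩, hσ₀e x]⟩

end Vale.Agent.P281.H383.TGF
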