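import Vale.Agent.P281.H383.TGF.Core
import Vale.Agent.P281.H383.U.Main

/-! P281, project T-GF, block L3 (helper383): relative forms bounded on the tame slices off a closed
set without vertical hypersurface germs. -/

open scoped Manifold ContDiff Topology
open Set Filter Metric Vale.Agent.P281 Vale.Agent.P272.K
open Vale.Agent.P281.MF Vale.Agent.P281.ISO Vale.Agent.P281.ELL Vale.Agent.P281.H713
open Vale.Agent.P281.H713.TZ Vale.Agent.P281.H64.Gen Vale.Agent.P281.H64.TU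
open Vale.Agent.P281.H969.TGB (TameOKB HypStmt)

noncomputable section

namespace Vale.Agent.P281.H383.TGF

/-- `B` contains no hypersurface germ over a small set. -/
def NoVert (n p : ℕ) {X Y : Type} [TopologicalSpace X] [ChartedSpace (Cm n) X]
    [TopologicalSpace Y] [ChartedSpace (Cm p) Y] (f : X → Y) (B : Set X) : Prop :=
  ∀ S' : Set Y, IsSmallSet (Cm p) S' → ∀ (g : X → ℂ) (x : X), HolV (Cm n) g x → g x = 0 →
    (∀ᶠ z in 𝓝 x, g z = 0 → f z ∈ S') → ∃ᶠ z in 𝓝 x, g z = 0 ∧ z ∉ B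

/-- **L3**, the statement: `LiftTBStmt` with `IsClosed B`, `NoVert` in place of `IsSmall2`. -/
def LiftTKStmt : Prop :=
  ∀ (n p : ℕ) (X Y E₁ : Type) [TopologicalSpace X] [T2Space X] [ConnectedSpace X]
    [ChartedSpace (Cm n) X] [IsManifold 𝓘(ℂ, Cm n) ω X] [TopologicalSpace Y] [T2Space Y]
    [ChartedSpace (Cm p) Y] [IsManifold 𝓘(ℂ, Cm p) ω Y] [NormedAddCommGroup E₁] [NormedSpace ℂ E₁]
    [FiniteDimensional ℂ E₁] (T : Tame E₁ X) (f : X → Y) (S : Set Y) (e₀ : Cm n ≃L[ℂ] (Cm p × E₁))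
    (Δ : Set X → ℝ) (r j₂ : ℕ) (B : Set X), IsClosed B → NoVert n p f B →
    TameOKB (n := n) B T →
    ContMDiff 𝓘(ℂ, Cm n) 𝓘(ℂ, Cm p) ω f →
    IsSmallSet (Cm p) S → (∀ x, f x ∉ S → Function.Surjective (dM (Cm n) (Cm p) f x)) →
    J.IsSNC (Cm n) Δ → (∀ y, y ∉ S → HasFormsT T f S e₀ Δ r y) →
    KodFGE n p Δ (id : X → X) f j₂ →
    KodGE (Cm n) (fun (D : Set X) z g => IsLocalEq (Cm n) D g z) Δ (j₂ + r)

/-- **L3** -/
theorem liftTK : LiftTKStmt := by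
  intro n p X Y E₁ _ _ _ _ _ _ _ _ _ _ _ _ T f S e₀ Δ r j₂ B hB hV hT hf hS hsub hsnc hform h₂
  exact kodGE_UK hT hB H413.TZ.genPart H342.TZ.slicePart H431.linPart H498.poleZPart
    U.isBigOpen_id hf hV hS hsub e₀ hsnc hsnc (U.isRestriction_id Δ) hform h₂

end Vale.Agent.P281.H383.TGF
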